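import Vale.Agent.P236Et.TopK

/-!
# P236: the Kervaire invariant problem at the prime three, `K = {0, 2, 3}`

There is a stable homotopy category with a suspension spectrum functor.  In each of them the ring
spectrum `H = H 𝔽_3`, the Adams tower of the sphere and a generator `ξ` of `π_4 (H ∧ H)` exist, and
the class `b_j` survives nontrivially to `E_∞` if and only if `j ∈ {0, 2, 3}`; in these cases it
detects an element of order three.

The statement uses only the definitions of `P251/T/Axioms`, `P251/St/Base`, `P251/St/Chrom`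
(`RingSp`, `exch`, `zmul`), `P236Z/Top/St` and `P236H/St`.
-/

namespace Vale.Agent.Results.P236.Kervaire

open Vale.Agent.P251.St Vale.Agent.P251.St.SHCat Vale.Agent.P236Z.St Vale.Agent.P236H.St

theorem result : (∃ T : SHCat, Nonempty (Susp T)) ∧ ∀ (T : SHCat) (_ : Susp T),
    (∃ H : RingSp T, IsHF 3 H.unit) ∧ ∀ H : RingSp T, IsHF 3 H.unit →
      Nonempty (AdamsTower H.unit) ∧ (∃ ξ : Hom (sph T 4) (ten H.obj H.obj), ξ ≠ 0) ∧
      ∀ (A : AdamsTower H.unit) (ξ : Hom (sph T 4) (ten H.obj H.obj)), ξ ≠ 0 →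
        (∀ j : ℕ, Survives A ξ j ↔ j = 0 ∨ j = 2 ∨ j = 3) ∧
        (∃ θ, Detects A ξ 0 θ ∧ zmul 3 θ = 0) ∧ (∃ θ, Detects A ξ 2 θ ∧ zmul 3 θ = 0) ∧
        ∃ θ, Detects A ξ 3 θ ∧ zmul 3 θ = 0 :=
  Vale.Agent.P236E.fin_three

end Vale.Agent.Results.P236.Kervaire
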